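import Crest.Agent.X261.Ans.Man1
import Crest.Agent.X261.BT.Defs
import Crest.Agent.X261.Top.Defs

/-!
# X261/Shaf/Defs (helper55): the language of the `G`-reduction

* `Er A x y` : `x`, `y` lie in one compact connected analytic set; `BiP Z` : proper over both factors;
* `Key A`    : `Er` is contained in countably many analytic sets of `M × M` proper over both factors;
* `QPsh`, `Pol` : quasi-psh functions with values in `[-∞, ∞)`, logarithmic poles;
* `BG H` : bounded geometry, `OSeq` : obstacle sequences;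
* the statements `ProdStmt`, `ObsStmt`, `EnvStmt`, `AttStmt` and `key_of`.
-/

set_option autoImplicit false
set_option linter.unusedSectionVars false

open Set Filter Topology Metric

namespace Crest.Agent.X261.Shaf

open Crest.Agent.X261.Ans Crest.Agent.X261.BT
open Crest.Agent.X261.Psh (IsPsh)
open Crest.Agent.R275.Geo
open Crest.Agent.R281.Kp_487 (KP)
open Crest.Agent.R257.HoB_843 (lvE)
open Crest.Agent.R275.Core144 Crest.Agent.R275.GC293
open Crest.Agent.R273.Defs_333 Crest.Agent.R273.Kah_333 Crest.Agent.R273.UCov_914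

noncomputable section

section HAlevel

variable {E F : Type} [NormedAddCommGroup E] [NormedSpace ℂ E] [FiniteDimensional ℂ E]
  [NormedAddCommGroup F] [NormedSpace ℂ F] [FiniteDimensional ℂ F]
  {M N : Type} [TopologicalSpace M] [TopologicalSpace N]

/-- `x` and `y` lie in one compact connected analytic set -/
def Er (A : HA E M) (x y : M) : Prop :=
  ∃ Z : Set M, IsCompact Z ∧ IsPreconnected Z ∧ A.An univ Z ∧ x ∈ Z ∧ y ∈ Z

/-- closed and proper over both factors -/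
def BiP (Z : Set (M × M)) : Prop :=
  IsClosed Z ∧ ∀ K : Set M, IsCompact K → IsCompact (Z ∩ K ×ˢ univ) ∧ IsCompact (Z ∩ univ ×ˢ K)

/-- `Er` is inside countably many analytic sets, proper over both factors -/
def Key (A : HA E M) : Prop :=
  ∃ Z : ℕ → Set (M × M), (∀ c, (A.prod A).An univ (Z c) ∧ BiP (Z c)) ∧
    ∀ x y, Er A x y → ∃ c, (x, y) ∈ Z c

/-- `u + h i` is psh in every chart `i` -/
def QPsh (A : HA E M) (h : A.ι → E → ℝ) (u : M → EReal) : Prop :=
  ∀ i, IsPsh (A.e i).target fun z => u ((A.e i).symm z) + (h i z : ℝ)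

/-- logarithmic pole of order `c` at `x` -/
def Pol (A : HA E M) (u : M → EReal) (c : ℝ) (x : M) : Prop :=
  ∃ i, x ∈ (A.e i).source ∧ ∃ b : ℝ, ∀ᶠ r in 𝓝[>] (0 : ℝ), ∀ z ∈ closedBall (A.e i x) r,
    u ((A.e i).symm z) ≤ ((c * Real.log r + b : ℝ) : EReal)

variable {A : HA E M} {B : HA F N}

theorem Er.refl [T2Space M] (A : HA E M) (x : M) : Er A x x :=
  ⟨{x}, isCompact_singleton, isPreconnected_singleton, fun y _ => HA.anAt_singleton A x y, rfl, rfl⟩

theorem Er.symm {x y : M} (h : Er A x y) : Er A y x := by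
  obtain ⟨Z, h1, h2, h3, h4, h5⟩ := h
  exact ⟨Z, h1, h2, h3, h5, h4⟩

theorem Er.trans {x y z : M} (h : Er A x y) (h' : Er A y z) : Er A x z := by
  obtain ⟨Z, h1, h2, h3, h4, h5⟩ := h
  obtain ⟨Z', h1', h2', h3', h4', h5'⟩ := h'
  exact ⟨Z ∪ Z', h1.union h1', h2.union' ⟨y, h5, h4'⟩ h2', h3.union h3', Or.inl h4, Or.inr h5'⟩

theorem BiP.sub {Z Y : Set (M × M)} (h : BiP Z) (hY : IsClosed Y) (hs : Y ⊆ Z) : BiP Y := by
  refine ⟨hY, fun K hK => ⟨?_, ?_⟩⟩
  · have := ((h.2 K hK).1).inter_left hY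
    rwa [← inter_assoc, inter_eq_left.2 hs] at this
  · have := ((h.2 K hK).2).inter_left hY
    rwa [← inter_assoc, inter_eq_left.2 hs] at this

theorem BiP.swap {Z : Set (M × M)} (h : BiP Z) : BiP (Prod.swap ⁻¹' Z) := by
  refine ⟨h.1.preimage continuous_swap, fun K hK => ⟨?_, ?_⟩⟩
  · have := ((h.2 K hK).2).image continuous_swap
    convert this using 1
    ext ⟨a, b⟩
    simp [image_swap_eq_preimage_swap]
  · have := ((h.2 K hK).1).image continuous_swap
    convert this using 1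
    ext ⟨a, b⟩
    simp [image_swap_eq_preimage_swap]

theorem BiP.fib {Z : Set (M × M)} (h : BiP Z) {K : Set M} (hK : IsCompact K) :
    IsCompact {y | ∃ x ∈ K, (x, y) ∈ Z} := by
  have := ((h.2 K hK).1).image continuous_snd
  convert this using 1
  ext y
  constructor
  · rintro ⟨x, hx, hz⟩; exact ⟨(x, y), ⟨hz, hx, mem_univ _⟩, rfl⟩
  · rintro ⟨⟨a, b⟩, ⟨hz, hx, -⟩, rfl⟩; exact ⟨a, hx, hz⟩

theorem BiP.fib1 {Z : Set (M × M)} (h : BiP Z) (x : M) : IsCompact {y | (x, y) ∈ Z} := by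
  simpa using h.fib (isCompact_singleton (x := x))

theorem Pol.mono {u : M → EReal} {c c' : ℝ} {x : M} (h : Pol A u c x) (hc : c' ≤ c) :
    Pol A u c' x := by
  obtain ⟨i, hi, b, hb⟩ := h
  refine ⟨i, hi, b, ?_⟩
  filter_upwards [hb, Ioo_mem_nhdsGT (zero_lt_one' ℝ)] with r hr hr1 z hz
  refine (hr z hz).trans (EReal.coe_le_coe_iff.2 ?_)
  have := Real.log_nonpos hr1.1.le hr1.2.le
  nlinarith

theorem Pol.of_le {u v : M → EReal} {c : ℝ} {x : M} (h : Pol A v c x)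
    (huv : ∀ᶠ y in 𝓝 x, u y ≤ v y) : Pol A u c x := by
  obtain ⟨i, hi, b, hb⟩ := h
  refine ⟨i, hi, b, ?_⟩
  obtain ⟨ε, hε, hs⟩ := nhds_basis_closedBall.eventually_iff.1 ((HA.ev_chart hi).1 huv)
  filter_upwards [hb, Ioo_mem_nhdsGT hε] with r hr hr1 z hz
  exact (hs (closedBall_subset_closedBall hr1.2.le hz)).trans (hr z hz)

/-- poles pull back along holomorphic maps, and can be read in any chart -/
theorem Pol.pull {u : N → EReal} {c : ℝ} (_hc : 0 ≤ c) {f : M → N} {x : M} (hf : A.Hol B f x)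
    (h : Pol B u c (f x)) {i : A.ι} (hi : x ∈ (A.e i).source) :
    ∃ b : ℝ, ∀ᶠ r in 𝓝[>] (0 : ℝ), ∀ z ∈ closedBall (A.e i x) r,
      u (f ((A.e i).symm z)) ≤ ((c * Real.log r + b : ℝ) : EReal) := by
  obtain ⟨j, hj, b, hb⟩ := h
  have ha := hf.2 i j hi hj
  obtain ⟨L, hL0, hL⟩ := (ha.differentiableAt.hasFDerivAt.isBigO_sub).exists_pos
  have h1 : ∀ᶠ y in 𝓝 x, f y ∈ (B.e j).source := hf.1 ((B.e j).open_source.mem_nhds hj)
  obtain ⟨ε, hε, hs⟩ := nhds_basis_closedBall.eventually_iff.1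
    (hL.bound.and ((HA.ev_chart hi).1 h1))
  have ht : Tendsto (fun r : ℝ => L * r) (𝓝[>] 0) (𝓝[>] 0) := by
    refine tendsto_nhdsWithin_iff.2 ⟨?_, ?_⟩
    · have : Tendsto (fun r : ℝ => L * r) (𝓝 0) (𝓝 (L * 0)) :=
        (continuous_const.mul continuous_id).tendsto 0
      rw [mul_zero] at this
      exact this.mono_left nhdsWithin_le_nhds
    · filter_upwards [self_mem_nhdsWithin] with r hr
      exact mul_pos hL0 hr
  refine ⟨c * Real.log L + b, ?_⟩
  filter_upwards [ht.eventually hb, Ioo_mem_nhdsGT hε] with r hr hr1 z hz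
  obtain ⟨h2, h3⟩ := hs (closedBall_subset_closedBall hr1.2.le hz)
  have h4 : B.e j (f ((A.e i).symm z)) ∈ closedBall (B.e j (f x)) (L * r) := by
    rw [mem_closedBall, dist_eq_norm]
    simp only [(A.e i).left_inv hi] at h2
    refine h2.trans (mul_le_mul_of_nonneg_left ?_ hL0.le)
    rwa [mem_closedBall, dist_eq_norm] at hz
  have h5 := hr _ h4
  rw [(B.e j).left_inv h3, Real.log_mul hL0.ne' hr1.1.ne'] at h5
  refine h5.trans (le_of_eq ?_)
  congr 1
  ring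

theorem Pol.comp {u : N → EReal} {c : ℝ} (hc : 0 ≤ c) {f : M → N} {x : M} (hf : A.Hol B f x)
    (h : Pol B u c (f x)) : Pol A (fun y => u (f y)) c x := by
  obtain ⟨i, hi⟩ := A.cover x
  exact ⟨i, hi, h.pull hc hf hi⟩

theorem Pol.chart {u : M → EReal} {c : ℝ} (hc : 0 ≤ c) {x : M} (h : Pol A u c x) {i : A.ι}
    (hi : x ∈ (A.e i).source) : ∃ b : ℝ, ∀ᶠ r in 𝓝[>] (0 : ℝ), ∀ z ∈ closedBall (A.e i x) r,
      u ((A.e i).symm z) ≤ ((c * Real.log r + b : ℝ) : EReal) :=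
  Pol.pull (B := A) (f := fun y => y) hc (HA.hol_id A x) h hi

end HAlevel

section Atl

variable {n : ℕ} {N : Type} [TopologicalSpace N] {B : Atl n N}

/-- bounded geometry -/
structure BG (H : KP B) : Prop where
  pos : H.Pos
  slow : Slow H
  unif : ∃ (R C δ : ℝ) (a : N → B.ι), 0 < R ∧ 0 < δ ∧
    (∀ x, x ∈ (B.e (a x)).source ∧ closedBall (B.e (a x) x) R ⊆ (B.e (a x)).target ∧
      ∀ z ∈ closedBall (B.e (a x) x) R, |H.wt (a x) z| ≤ C ∧
        ∀ v : Cn n, δ * ‖v‖ ^ 2 ≤ lvE (H.wt (a x)) z v) ∧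
    ∀ K : Set N, IsCompact K → ∃ K' : Set N, IsCompact K' ∧ ∀ x ∉ K',
      ∀ z ∈ closedBall (B.e (a x) x) R, (B.e (a x)).symm z ∉ K

/-- a decreasing sequence of obstacles -/
structure OSeq (H : KP B) (C : ℝ) (K : Set N) (w : ℕ → N → ℝ) : Prop where
  one : 1 ≤ C
  cpt : IsCompact K
  qp : ∀ s, QP (sc C H) univ (w s)
  le : ∀ s x, w s x ≤ 0
  off : ∀ s, ∀ x ∉ K, w s x = 0
  anti : ∀ x, Antitone fun s => w s x

end Atl

/-- OBS: obstacles with a pole of order `c` along a compact submanifold -/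
def ObsStmt : Prop :=
  ∀ (n : ℕ) (N : Type) [TopologicalSpace N] [T2Space N] (B : Atl n N) [Countable B.ι] (H : KP B),
    H.Pos → ∀ Δ : Set N, IsCompact Δ → (∀ p ∈ Δ, ∃ d, (HA.of B).Reg Δ d p) → ∀ c : ℝ,
      ∃ (C : ℝ) (K : Set N) (w : ℕ → N → ℝ), OSeq H C K w ∧
        ∀ U : N → EReal, (∀ s x, U x ≤ (w s x : ℝ)) → ∀ p ∈ Δ, Pol (HA.of B) U c p

/-- ENV + NI: the envelope and its compact analytic non-integrability locus -/
def EnvStmt : Prop :=
  ∀ (n : ℕ) (N : Type) [TopologicalSpace N] [T2Space N] (B : Atl n N) [Countable B.ι] (H : KP B),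
    BG H → ∀ (C : ℝ) (K : Set N) (w : ℕ → N → ℝ), OSeq H C K w →
      ∃ (U : N → EReal) (Z : Set N), QPsh (HA.of B) H.wt U ∧ (∀ s x, U x ≤ (w s x : ℝ)) ∧
        IsCompact Z ∧ (HA.of B).An univ Z ∧ ∀ x, Pol (HA.of B) U (2 * n + 1) x → x ∈ Z

/-- ATT: poles propagate along compact connected analytic sets -/
def AttStmt : Prop :=
  ∀ (E M : Type) [NormedAddCommGroup E] [NormedSpace ℂ E] [FiniteDimensional ℂ E]
    [TopologicalSpace M] [T2Space M] (A : HA E M) [Countable A.ι]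
    (h : (A.prod A).ι → E × E → ℝ), (∀ i, ContinuousOn (h i) ((A.prod A).e i).target) →
    ∀ x y, Er A x y → ∀ j : ℝ, ∃ c : ℝ, ∀ u : M × M → EReal, QPsh (A.prod A) h u →
      (∀ q, u q ≤ 0) → Pol (A.prod A) u c (y, y) → Pol (A.prod A) u j (x, y)

/-- the quotient `N = (M × M) / G` -/
structure PQ {E M : Type} [NormedAddCommGroup E] [NormedSpace ℂ E] [TopologicalSpace M]
    (A : HA E M) {m : ℕ} {N : Type} [TopologicalSpace N] (B : Atl m N) (H : KP B)
    (q : M × M → N) : Prop where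
  bg : BG H
  hol : ∀ x, (A.prod A).Hol (HA.of B) q x
  sec : ∀ x, ∃ σ : N → M × M, (HA.of B).Hol (A.prod A) σ (q x) ∧ σ (q x) = x ∧
    ∀ᶠ y in 𝓝 (q x), q (σ y) = y
  prop : ∀ K : Set N, IsCompact K → BiP (q ⁻¹' K)
  cpt : IsCompact (range fun x => q (x, x))
  reg : ∀ p ∈ range fun x => q (x, x), ∃ d, (HA.of B).Reg (range fun x => q (x, x)) d p
  psh : ∃ h : (A.prod A).ι → E × E → ℝ, (∀ i, ContinuousOn (h i) ((A.prod A).e i).target) ∧
    ∀ U : N → EReal, QPsh (HA.of B) H.wt U → QPsh (A.prod A) h fun x => U (q x)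

/-- PROD -/
def ProdStmt : Prop :=
  ∀ (n : ℕ) (X : Type) [TopologicalSpace X] [T2Space X] [CompactSpace X]
    (A : Atl n X) [Finite A.ι], GoodA A → Part A → Kah A →
    ∀ (G : Type) [Group G] (D : MonD A G), ConnectedSpace (D.cov G) →
      ∃ (m : ℕ) (N : Type) (_ : TopologicalSpace N) (_ : T2Space N) (B : Atl m N)
        (_ : Countable B.ι) (H : KP B) (q : D.cov G × D.cov G → N), PQ (HA.of (D.atl G)) B H q

/-- KEY from the four pieces -/
theorem key_of_pq (hO : ObsStmt) (hE : EnvStmt) (hA : AttStmt) {E M : Type}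
    [NormedAddCommGroup E] [NormedSpace ℂ E] [FiniteDimensional ℂ E] [TopologicalSpace M]
    [T2Space M] {A : HA E M} [Countable A.ι] {m : ℕ} {N : Type} [TopologicalSpace N] [T2Space N]
    {B : Atl m N} [Countable B.ι] {H : KP B} {q : M × M → N} (P : PQ A B H q) : Key A := by
  obtain ⟨h, hc, hp⟩ := P.psh
  have key : ∀ c : ℕ, ∃ (U : N → EReal) (Z : Set N), QPsh (HA.of B) H.wt U ∧ (∀ x, U x ≤ 0) ∧
      (∀ x, Pol (HA.of B) U c (q (x, x))) ∧ IsCompact Z ∧ (HA.of B).An univ Z ∧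
      ∀ x, Pol (HA.of B) U (2 * m + 1) x → x ∈ Z := by
    intro c
    obtain ⟨C, K, w, hw, hpol⟩ := hO m N B H P.bg.pos _ P.cpt P.reg c
    obtain ⟨U, Z, h1, h2, h3, h4, h5⟩ := hE m N B H P.bg C K w hw
    refine ⟨U, Z, h1, fun x => (h2 0 x).trans ?_, fun x => hpol U h2 _ ⟨x, rfl⟩, h3, h4, h5⟩
    exact_mod_cast hw.le 0 x
  choose U Z h1 h2 h3 h4 h5 h6 using key
  refine ⟨fun c => q ⁻¹' Z c, fun c => ⟨fun x _ => (h5 c _ (mem_univ _)).preimage (P.hol x),
    P.prop _ (h4 c)⟩, fun x y hxy => ?_⟩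
  obtain ⟨c, hc'⟩ := hA E M A h hc x y hxy (2 * m + 1)
  obtain ⟨k, hk⟩ := exists_nat_ge c
  refine ⟨k, h6 k _ ?_⟩
  have e1 := hc' (fun x => U k (q x)) (hp _ (h1 k)) (fun _ => h2 k _)
    (((h3 k y).comp (Nat.cast_nonneg k) (P.hol (y, y))).mono hk)
  obtain ⟨σ, s1, s2, s3⟩ := P.sec (x, y)
  rw [← s2] at e1
  refine (e1.comp (by positivity) s1).of_le ?_
  filter_upwards [s3] with z hz
  rw [hz]

end

end Crest.Agent.X261.Shaf
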