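import Crest.Agent.X261.Shaf.Defs
import Crest.Agent.X261.Ans.Defs2
import Crest.Agent.X261.Ans.Man2

/-!
# X261/Shaf/Defs2 (helper55): the geometric half of the `G`-reduction, interfaces

`Core A` (maximal relation), `GrAt` (graph structure), `Pre` (pre-tube), `Tb` (tube) and the
statements `FdStmt`, `GrStmt`, `TubStmt`, `ConnStmt`, `MaxStmt`, `MerStmt`, `TopStmt`.
-/

set_option autoImplicit false
set_option linter.unusedSectionVars false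

open Set Filter Topology Metric Module

namespace Crest.Agent.X261.Shaf

open Crest.Agent.X261.Ans Crest.Agent.X261.Top
open Crest.Agent.R275.Geo Crest.Agent.R275.Core144 Crest.Agent.R275.GC293
open Crest.Agent.R273.Fock_243 (FI)

noncomputable section

section

variable {E : Type} [NormedAddCommGroup E] [NormedSpace ℂ E] {M : Type} [TopologicalSpace M]

/-- the maximal irreducible relation `Y`, proper over both factors, with the sets `Z c` of `Key` -/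
structure Core (A : HA E M) where
  p : ℕ
  r : ℕ
  hpr : p + r = finrank ℂ E
  hp : 1 ≤ p
  Y : Set (M × M)
  irr : (A.prod A).Irr univ Y (finrank ℂ E + r)
  bip : BiP Y
  diag : ∀ x, (x, x) ∈ Y
  symm : ∀ x y, (x, y) ∈ Y → (y, x) ∈ Y
  max : ∀ (Y' : Set (M × M)) (d : ℕ), (A.prod A).Irr univ Y' d → (∀ x, (x, x) ∈ Y') → BiP Y' →
    Y' ⊆ Y
  inv : ∀ g g' : M → M, HA.Bih A A univ univ g g' → ∀ x y, (x, y) ∈ Y → (g x, g y) ∈ Y
  an_bad : A.An univ {x | ¬ (A.prod A).Reg Y (finrank ℂ E + r) (x, x)}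
  cov_bad : A.Cov (finrank ℂ E) {x | ¬ (A.prod A).Reg Y (finrank ℂ E + r) (x, x)}
  fol : ∀ x, (A.prod A).Reg Y (finrank ℂ E + r) (x, x) → Ans.Fol A Y p x
  forms : ∀ (i : A.ι), ∀ x ∈ (A.e i).source, ∃ (W : Set E) (f : Fin p → E × E → ℂ), IsOpen W ∧
    IsPreconnected W ∧ A.e i x ∈ W ∧ W ⊆ (A.e i).target ∧
    (∀ j, AnalyticOnNhd ℂ (f j) (W ×ˢ W)) ∧
    (∀ j, ∀ y ∈ W, ∀ z ∈ W, ((A.e i).symm y, (A.e i).symm z) ∈ Y → f j (y, z) = 0) ∧
    ∃ z ∈ W, Function.Surjective (fderiv ℂ (fun y => fun j => f j (z, y)) z)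
  Z : ℕ → Set (M × M)
  Z_an : ∀ c, (A.prod A).An univ (Z c)
  Z_bip : ∀ c, BiP (Z c)
  er : ∀ x y, Er A x y → ∃ c, (x, y) ∈ Z c
  /-- generically all `Z c` are inside `Y` near the diagonal -/
  loc : A.Cov (finrank ℂ E) {x | ¬ ∀ c, ∀ᶠ q in 𝓝 (x, x), q ∈ Z c → q ∈ Y}

variable {A : HA E M}

/-- `(x, x)` is a regular point of `Y` (so that there is a foliation chart at `x`) -/
def Core.Gd (C : Core A) (x : M) : Prop := (A.prod A).Reg C.Y (finrank ℂ E + C.r) (x, x)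

/-- along the whole fibre over `x`, `Y` is of the form `π a = τ b` -/
def GrAt (C : Core A) (x : M) : Prop :=
  C.Gd x ∧ ∃ π : M → Cn C.p, A.Subm (HA.self (Cn C.p)) π x ∧ ∀ b, (x, b) ∈ C.Y →
    ∃ τ : M → Cn C.p, A.Hol (HA.self (Cn C.p)) τ b ∧ ∀ᶠ q in 𝓝 (x, b), q ∈ C.Y ↔ π q.1 = τ q.2

/-- pre-tube: the fibres of `Y` over the points of `U` are the fibres of `τ : T → ball 0 1` -/
structure Pre (C : Core A) (U T : Set M) (τ : M → Cn C.p) : Prop where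
  opnU : IsOpen U
  opn : IsOpen T
  sub : U ⊆ T
  subm : ∀ y ∈ T, A.Subm (HA.self (Cn C.p)) τ y
  img : ∀ y ∈ T, τ y ∈ ball (0 : Cn C.p) 1
  onto : ball (0 : Cn C.p) 1 ⊆ τ '' U
  prop : ∀ ρ < (1 : ℝ), IsCompact {y | y ∈ T ∧ ‖τ y‖ ≤ ρ}
  gd : ∀ a ∈ U, C.Gd a
  fib : ∀ a ∈ U, ∀ z, (a, z) ∈ C.Y ↔ z ∈ T ∧ τ z = τ a

/-- tube -/
structure Tb (C : Core A) (T : Set M) (τ : M → Cn C.p) : Prop where
  opn : IsOpen T
  subm : ∀ y ∈ T, A.Subm (HA.self (Cn C.p)) τ y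
  img : τ '' T = ball (0 : Cn C.p) 1
  prop : ∀ ρ < (1 : ℝ), IsCompact {y | y ∈ T ∧ ‖τ y‖ ≤ ρ}
  fib : ∀ a ∈ T, ∀ z, (a, z) ∈ C.Y ↔ z ∈ T ∧ τ z = τ a
  conn : ∀ a ∈ T, IsPreconnected {z | (a, z) ∈ C.Y}

end

/-- FD (55) -/
def FdStmt : Prop :=
  ∀ (E M : Type) [NormedAddCommGroup E] [NormedSpace ℂ E] [FiniteDimensional ℂ E]
    [TopologicalSpace M] [T2Space M] [ConnectedSpace M] [NoncompactSpace M] (A : HA E M)
    [Countable A.ι], Key A → Nonempty (Core A)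

/-- GR -/
def GrStmt : Prop :=
  ∀ (E M : Type) [NormedAddCommGroup E] [NormedSpace ℂ E] [FiniteDimensional ℂ E]
    [TopologicalSpace M] [T2Space M] [ConnectedSpace M] (A : HA E M) [Countable A.ι] (C : Core A),
    A.Cov (finrank ℂ E) {x | ¬ GrAt C x}

/-- TUB -/
def TubStmt : Prop :=
  ∀ (E M : Type) [NormedAddCommGroup E] [NormedSpace ℂ E] [FiniteDimensional ℂ E]
    [TopologicalSpace M] [T2Space M] [ConnectedSpace M] (A : HA E M) [Countable A.ι] (C : Core A),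
    A.Cov (finrank ℂ E) {x | ¬ GrAt C x} →
      A.Cov (finrank ℂ E) {x | ¬ ∃ U T τ, Pre C U T τ ∧ x ∈ U}

/-- CONN -/
def ConnStmt : Prop :=
  ∀ (E M : Type) [NormedAddCommGroup E] [NormedSpace ℂ E] [FiniteDimensional ℂ E]
    [TopologicalSpace M] [T2Space M] [ConnectedSpace M] (A : HA E M) [Countable A.ι] (C : Core A),
    A.Cov (finrank ℂ E) {x | ¬ ∃ U T τ, Pre C U T τ ∧ x ∈ U} →
      ∀ U T τ, Pre C U T τ → Tb C T τ

/-- MAX -/
def MaxStmt : Prop :=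
  ∀ (E M : Type) [NormedAddCommGroup E] [NormedSpace ℂ E] [FiniteDimensional ℂ E]
    [TopologicalSpace M] [T2Space M] [ConnectedSpace M] (A : HA E M) [Countable A.ι] (C : Core A),
    ∀ T τ, Tb C T τ → ∀ x ∈ T, (∀ c, ∀ᶠ q in 𝓝 (x, x), q ∈ C.Z c → q ∈ C.Y) →
      ∀ z, Er A x z → (x, z) ∈ C.Y

/-- MER -/
def MerStmt : Prop :=
  ∀ (n : ℕ) (M : Type) [TopologicalSpace M] (B : Atl n M) (C : Core (HA.of B)) (x : M),
    ∃ (i : B.ι) (U : Set M) (τ : M → FI n → ℂ), IsOpen U ∧ x ∈ U ∧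
      U ⊆ (B.e i).source ∧ (∀ S, HolAt B i U fun y => τ y S) ∧
      (∀ y S, S.card ≠ C.p → τ y S = 0) ∧
      (∀ V : Set M, IsOpen V → V.Nonempty → V ⊆ U → ∃ y ∈ V, τ y ≠ 0) ∧
      ∀ T π, Tb C T π → ∀ y ∈ U ∩ T, ∃ c : ℂ, τ y = c • dW B i π y

/-- TOP: the final conversion -/
def TopStmt : Prop :=
  MaxStmt → MerStmt → ∀ (n : ℕ) (M : Type) [TopologicalSpace M] [T2Space M] [ConnectedSpace M]
    (B : Atl n M) [Countable B.ι] (G : Type) [Group G] [Countable G] [MulAction G M],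
    (∀ (g : G) x, (HA.of B).Hol (HA.of B) (fun y => g • y) x) → ∀ C : Core (HA.of B),
    (HA.of B).Cov (finrank ℂ (Cn n)) {x | ¬ ∃ T τ, Tb C T τ ∧ x ∈ T} →
      Nonempty (Tube B G C.p)

end

end Crest.Agent.X261.Shaf
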