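import Crest.Agent.X261.Shaf.Defs2
import Crest.Agent.X261.Ans.EqvD

/-!
# X261/Shaf/Fd (helper55): the class of irreducible relations proper over both factors

* `near_comp` : near `q` every point of `Z` lies on a component through `q`;
* `er_near`   : a compact analytic set is inside the class of `x` near `x`;
* `up`        : stability under components of fibre products;
* `fd_of`     : `EqvKStmt → FdStmt`.
-/

set_option autoImplicit false
set_option linter.unusedSectionVars false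

open Set Filter Topology Metric Module

namespace Crest.Agent.X261.Shaf

open Crest.Agent.X261.Ans

noncomputable section

variable {E F : Type} [NormedAddCommGroup E] [NormedSpace ℂ E] [FiniteDimensional ℂ E]
  [NormedAddCommGroup F] [NormedSpace ℂ F] [FiniteDimensional ℂ F]
  {M N : Type} [TopologicalSpace M] [TopologicalSpace N] {A : HA E M} {B : HA F N}

/-- near `q` every point of `Z` lies on a component through `q` -/
theorem near_comp {U Z : Set M} (hU : IsOpen U) (hZ : A.An U Z) {q : M} (hq : q ∈ U) :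
    ∀ᶠ z in 𝓝 q, z ∈ Z → ∃ C, A.Comp U Z C ∧ q ∈ C ∧ z ∈ C := by
  obtain ⟨W, hW, hf⟩ := HA.comp_lf hU hZ hq
  have h1 : ∀ᶠ z in 𝓝 q, ∀ C ∈ {Y | A.Comp U Z Y ∧ (Y ∩ W).Nonempty}, q ∉ C → z ∉ C := by
    refine (eventually_all_finite hf).2 fun C hC => ?_
    by_cases h : q ∈ C
    · exact Eventually.of_forall fun _ h' => absurd h h'
    · exact ((hC.1.an hU hZ q hq).eventually_notMem h).mono fun _ hz _ => hz
  filter_upwards [h1, hW, hU.mem_nhds hq] with z hz hzW hzU hzZ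
  obtain ⟨C, hC, hzC⟩ := HA.comp_cover hU hZ hzU hzZ
  refine ⟨C, hC, ?_, hzC⟩
  by_contra h
  exact hz C ⟨hC, z, hzC, hzW⟩ h hzC

theorem er_of_comp {K C : Set M} (hK : IsCompact K) (hA : A.An univ K) (hC : A.Comp univ K C)
    {x y : M} (hx : x ∈ C) (hy : y ∈ C) : Er A x y := by
  obtain ⟨hs, d, hi⟩ := hC.irr isOpen_univ hA
  refine ⟨C, hK.of_isClosed_subset hi.an.isClosed hs, ?_, hi.an, hx, hy⟩
  simpa using hi.preconnected

/-- a compact analytic set is inside the class of `x` near `x` -/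
theorem er_near {K : Set M} (hK : IsCompact K) (hA : A.An univ K) (x : M) :
    ∀ᶠ y in 𝓝 x, y ∈ K → Er A x y := by
  filter_upwards [near_comp isOpen_univ hA (mem_univ x)] with y hy hyK
  obtain ⟨C, hC, h1, h2⟩ := hy hyK
  exact er_of_comp hK hA hC h1 h2

theorem an_fib {Y : Set (M × M)} (hY : (A.prod A).An univ Y) (x : M) :
    A.An univ {y | (x, y) ∈ Y} := fun y _ => (hY _ (mem_univ _)).preimage (HA.hol_inr A A x y)

theorem an_fib' {Y : Set (M × M)} (hY : (A.prod A).An univ Y) (x : M) :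
    A.An univ {y | (y, x) ∈ Y} := fun y _ => (hY _ (mem_univ _)).preimage (HA.hol_inl A A x y)

theorem hol_mid (A : HA E M) (t : M × M × M) :
    (A.prod (A.prod A)).Hol A (fun t => t.2.1) t :=
  (HA.hol_snd A (A.prod A) t).fst

/-- a set containing, for every `y`, a neighbourhood of a point of the fibre over `y` is thick -/
theorem not_cov_of_fibres [Nonempty N] [Countable A.ι] {C S : Set M} {d : ℕ}
    (hC : A.Irr univ C d) {f : M → N} (hf : ∀ x, A.Hol B f x)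
    (h : ∀ y, ∃ x ∈ C, f x = y ∧ ∀ᶠ z in 𝓝 x, z ∈ C → f z = y → z ∈ S) : ¬ A.Cov d S := by
  intro hS
  cases d with
  | zero =>
    obtain ⟨x, hx, h1, h2⟩ := h (Classical.arbitrary N)
    have := h2.self_of_nhds hx h1
    rw [HA.cov_zero.1 hS] at this
    exact this
  | succ d =>
    obtain ⟨y, hy⟩ := (ne_univ_iff_exists_notMem _).1
      (hS.fibre (B := B) fun x _ => hf x).ne_univ
    rw [mem_ofPred_eq, not_not] at hy
    obtain ⟨x, hx, rfl, h2⟩ := h y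
    have h3 : A.Cov (d + 1 - finrank ℂ F) (C ∩ {z | z ∈ C → f z = f x → z ∈ S} ∩ f ⁻¹' {f x}) :=
      hy.sub fun z hz => ⟨hz.1.2 hz.1.1 hz.2, hz.2⟩
    obtain ⟨s, hs⟩ : ∃ s, d + 1 - finrank ℂ F = s + 1 := by
      refine Nat.exists_eq_succ_of_ne_zero fun h0 => ?_
      rw [h0, HA.cov_zero] at h3
      have : x ∈ C ∩ {z | z ∈ C → f z = f x → z ∈ S} ∩ f ⁻¹' {f x} :=
        ⟨⟨hx, h2.self_of_nhds⟩, rfl⟩
      rw [h3] at this
      exact this
    rw [hs] at h3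
    obtain ⟨O, hO, hxO, -, -, h4⟩ := HA.usc (hC.an x (mem_univ _)) (hf x) h2 h3
    refine hC.not_cov isOpen_univ hO ⟨x, ⟨hxO, mem_univ _⟩, hx⟩ ?_
    have e : finrank ℂ F + s + 1 = d + 1 := by omega
    rw [e] at h4
    exact h4.sub fun z hz => ⟨hz.2, hz.1.1⟩

variable [T2Space M] [ConnectedSpace M] [Countable A.ι]

/-- an irreducible set whose image under `f` is thickly inside `Er` is mapped into one `Z c` -/
theorem sub_of_thick {P G : Type} [NormedAddCommGroup G] [NormedSpace ℂ G]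
    [FiniteDimensional ℂ G] [TopologicalSpace P] {D : HA G P} {C : Set P} {d : ℕ}
    (hC : D.Irr univ C d) {f : P → M × M} (hf : ∀ x, D.Hol (A.prod A) f x) {Z : ℕ → Set (M × M)}
    (hZ : ∀ c, (A.prod A).An univ (Z c)) (her : ∀ x y, Er A x y → ∃ c, (x, y) ∈ Z c)
    (h : ¬ D.Cov d {t | t ∈ C ∧ Er A (f t).1 (f t).2}) : ∃ c, ∀ t ∈ C, f t ∈ Z c := by
  by_contra hn
  refine h ((HA.cov_iUnion (S := fun c => univ ∩ C ∩ f ⁻¹' Z c) fun c => ?_).sub fun t ht => ?_)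
  · refine (hC.drop isOpen_univ fun t _ => (hZ c _ (mem_univ _)).preimage (hf t)).resolve_left ?_
    exact fun hs => hn ⟨c, fun t ht => hs ⟨mem_univ _, ht⟩⟩
  · obtain ⟨c, hc⟩ := her _ _ ht.2
    exact mem_iUnion.2 ⟨c, ⟨mem_univ _, ht.1⟩, hc⟩

theorem up (hK : Key A) {Y₁ Y₂ : Set (M × M)} (h₁ : (A.prod A).An univ Y₁) (b₁ : BiP Y₁)
    (h₂ : (A.prod A).An univ Y₂) (b₂ : BiP Y₂) {C : Set (M × M × M)}
    (hC : (A.prod (A.prod A)).Comp univ (FP Y₁ Y₂) C) (hd : ∀ x, (x, x, x) ∈ C) :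
    ∃ Y₃ : Set (M × M), (∃ d, (A.prod A).Irr univ Y₃ d) ∧ (∀ x, (x, x) ∈ Y₃) ∧ BiP Y₃ ∧
      ∀ t ∈ C, (t.1, t.2.2) ∈ Y₃ := by
  obtain ⟨Z, hZ, her⟩ := hK
  obtain ⟨hs, d, hi⟩ := hC.irr isOpen_univ (HA.an_FP h₁ h₂)
  have : Countable (A.prod (A.prod A)).ι := inferInstanceAs (Countable (A.ι × A.ι × A.ι))
  obtain ⟨c, hc⟩ := sub_of_thick hi (HA.hol_pr13 A) (fun c => (hZ c).1) her (by
    refine not_cov_of_fibres hi (hol_mid A) fun y => ⟨(y, y, y), hd y, rfl, ?_⟩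
    have e1 := er_near (b₁.swap.fib1 y) (an_fib' h₁ y) y
    have e2 := er_near (b₂.fib1 y) (an_fib h₂ y) y
    have t1 : Tendsto (fun t : M × M × M => t.1) (𝓝 (y, y, y)) (𝓝 y) := continuous_fst.tendsto _
    have t2 : Tendsto (fun t : M × M × M => t.2.2) (𝓝 (y, y, y)) (𝓝 y) :=
      (continuous_snd.comp continuous_snd).tendsto (y, y, y)
    filter_upwards [t1.eventually e1, t2.eventually e2] with t h1 h2 ht hy
    obtain ⟨k1, k2⟩ := hs ht
    have hy' : t.2.1 = y := hy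
    rw [hy'] at k1 k2
    exact ⟨ht, (h1 k1).symm.trans (h2 k2)⟩)
  obtain ⟨Y₃, hY, hm⟩ := HA.Irr.img_comp isOpen_univ (hZ c).1 isOpen_univ hi
    (fun t _ => HA.hol_pr13 A t) fun t ht => ⟨mem_univ _, hc t ht.2⟩
  obtain ⟨hs₃, k, hk⟩ := hY.irr isOpen_univ (hZ c).1
  exact ⟨Y₃, ⟨k, hk⟩, fun x => hm (x, x, x) ⟨mem_univ _, hd x⟩,
    (hZ c).2.sub hk.an.isClosed hs₃, fun t ht => hm t ⟨mem_univ _, ht⟩⟩

theorem biP_diag : BiP {q : M × M | q.1 = q.2} := by
  refine ⟨isClosed_eq continuous_fst continuous_snd, fun K hK => ⟨?_, ?_⟩⟩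
  · convert hK.image (continuous_id.prodMk continuous_id) using 1
    ext ⟨a, b⟩
    constructor
    · rintro ⟨h, h1, -⟩
      exact ⟨a, h1, Prod.ext rfl h⟩
    · rintro ⟨x, hx, h⟩
      obtain ⟨rfl, rfl⟩ := Prod.mk.inj h
      exact ⟨rfl, hx, mem_univ _⟩
  · convert hK.image (continuous_id.prodMk continuous_id) using 1
    ext ⟨a, b⟩
    constructor
    · rintro ⟨h, -, h1⟩
      exact ⟨b, h1, Prod.ext (Eq.symm h) rfl⟩
    · rintro ⟨x, hx, h⟩
      obtain ⟨rfl, rfl⟩ := Prod.mk.inj h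
      exact ⟨rfl, mem_univ _, hx⟩

theorem BiP.bih {Y : Set (M × M)} (h : BiP Y) {g g' : M → M} (hg : HA.Bih A A univ univ g g') :
    BiP ((fun q : M × M => (g' q.1, g' q.2)) ⁻¹' Y) := by
  have c1 : Continuous g := continuousOn_univ.1 hg.contOn
  have c2 : Continuous g' := continuousOn_univ.1 hg.symm.contOn
  have c3 : Continuous fun q : M × M => (g q.1, g q.2) :=
    (c1.comp continuous_fst).prodMk (c1.comp continuous_snd)
  have c4 : Continuous fun q : M × M => (g' q.1, g' q.2) :=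
    (c2.comp continuous_fst).prodMk (c2.comp continuous_snd)
  refine ⟨h.1.preimage c4, fun K hK => ⟨?_, ?_⟩⟩
  · refine (((h.2 _ (hK.image c2)).1).image c3).of_isClosed_subset
      ((h.1.preimage c4).inter (hK.isClosed.prod isClosed_univ)) fun q hq => ?_
    exact ⟨(g' q.1, g' q.2), ⟨hq.1, ⟨q.1, hq.2.1, rfl⟩, mem_univ _⟩,
      Prod.ext (hg.gf _ (mem_univ _)) (hg.gf _ (mem_univ _))⟩
  · refine (((h.2 _ (hK.image c2)).2).image c3).of_isClosed_subset
      ((h.1.preimage c4).inter (isClosed_univ.prod hK.isClosed)) fun q hq => ?_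
    exact ⟨(g' q.1, g' q.2), ⟨hq.1, mem_univ _, ⟨q.2, hq.2.2, rfl⟩⟩,
      Prod.ext (hg.gf _ (mem_univ _)) (hg.gf _ (mem_univ _))⟩

/-- the class of all irreducible relations containing the diagonal, proper over both factors -/
def relK (hK : Key A) : RelK A where
  K := {Y | (∃ d, (A.prod A).Irr univ Y d) ∧ (∀ x, (x, x) ∈ Y) ∧ BiP Y}
  ne := ⟨_, ⟨_, HA.irr_diag A⟩, fun _ => rfl, biP_diag⟩
  irr := fun _ h => h.1
  diag := fun _ h => h.2.1
  symm := fun Y h => ⟨Prod.swap ⁻¹' Y, ⟨h.1.imp fun _ hd => hd.swap, h.2.1, h.2.2.swap⟩,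
    fun _ _ hxy => hxy⟩
  up := fun _ h₁ _ h₂ _ hC hd => by
    obtain ⟨Y₃, k1, k2, k3, k4⟩ := up hK h₁.1.choose_spec.an h₁.2.2 h₂.1.choose_spec.an h₂.2.2 hC hd
    exact ⟨Y₃, ⟨k1, k2, k3⟩, k4⟩

theorem core_of [NoncompactSpace M] (hK : Key A) (Q : EqvK (relK hK)) : Nonempty (Core A) := by
  have hmax : ∀ (Y' : Set (M × M)) (d : ℕ), (A.prod A).Irr univ Y' d → (∀ x, (x, x) ∈ Y') →
      BiP Y' → Y' ⊆ Q.Y := fun Y' d h1 h2 h3 => Q.max Y' ⟨⟨d, h1⟩, h2, h3⟩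
  have hb : BiP Q.Y := Q.mem.2.2
  obtain ⟨Z, hZ, her⟩ := hK
  refine ⟨⟨Q.p, Q.r, Q.hpr, ?_, Q.Y, Q.irr, hb, Q.diag, Q.symm, hmax, ?_, Q.an_bad, ?_, Q.fol,
    Q.forms, Z, fun c => (hZ c).1, fun c => (hZ c).2, her, ?_⟩⟩
  · by_contra h0
    obtain ⟨x, hx⟩ := Q.ne_good
    have e : finrank ℂ E + Q.r = finrank ℂ (E × E) := by
      have := Q.hpr
      rw [Module.finrank_prod]; omega
    rw [e] at hx
    have h1 := Q.irr.an.eq_univ hx.mem_nhds
    have h2 := hb.fib1 x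
    rw [h1] at h2
    exact noncompact_univ M (by simpa using h2)
  · intro g g' hg x y hxy
    have h1 := (hg.prod hg).irr (by rw [univ_prod_univ]; exact Q.irr)
    rw [univ_prod_univ] at h1
    refine hmax _ _ h1 (fun z => Q.diag _) (hb.bih hg) ?_
    change (g' (g x), g' (g y)) ∈ Q.Y
    rwa [hg.fg x (mem_univ _), hg.fg y (mem_univ _)]
  · obtain ⟨x, hx⟩ := Q.ne_good
    exact Q.an_bad.cov_of_ne ((ne_univ_iff_exists_notMem _).2 ⟨x, not_not.2 hx⟩)
  · refine (HA.cov_iUnion (S := fun c => {x | ¬ ∀ᶠ q in 𝓝 (x, x), q ∈ Z c → q ∈ Q.Y})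
      fun c => ?_).sub fun x hx => ?_
    · obtain ⟨h1, x, hx⟩ := locStmt E M A (Z c) Q.Y (hZ c).1 Q.irr.an fun C hC hd => by
        obtain ⟨hs, d, hi⟩ := hC.irr isOpen_univ (hZ c).1
        exact hmax C d hi hd ((hZ c).2.sub hi.an.isClosed hs)
      exact h1.cov_of_ne ((ne_univ_iff_exists_notMem _).2 ⟨x, not_not.2 hx⟩)
    · obtain ⟨c, hc⟩ := not_forall.1 hx
      exact mem_iUnion.2 ⟨c, hc⟩

theorem fd_of (h : EqvKStmt) : FdStmt := fun E M _ _ _ _ _ _ _ A _ hK =>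
  (h E M A (relK hK)).elim fun Q => core_of hK Q

end

end Crest.Agent.X261.Shaf
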